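import Mathlib
import Vale.Agent.Lib.P068.SumUniform

/-!
Assuming the continuum hypothesis, both the matroid intersection conjecture and the
packing/covering conjecture fail on a countable ground set.
-/

namespace Vale.Agent.Results.P068.FailsUnderCH

open Set
open scoped Matroid

/-- The pair of matroids satisfies intersection. -/
def SatisfiesIntersection {α : Type} (M N : Matroid α) : Prop :=
  ∃ J JM JN : Set α, M.Indep J ∧ N.Indep J ∧ JM ∪ JN = J ∧ Disjoint JM JN ∧
    M.closure JM ∪ N.closure JN = M.E

/-- The family of matroids on the ground set `E` has a packing/covering partition. -/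
def HasPackingCovering {α ι : Type} (E : Set α) (M : ι → Matroid α) : Prop :=
  ∃ (P C : Set α) (S I : ι → Set α), P ∪ C = E ∧ Disjoint P C ∧
    (∀ i, S i ⊆ P) ∧ (∀ i j, i ≠ j → Disjoint (S i) (S j)) ∧
    (∀ i, ((M i) ↾ P).closure (S i) = P) ∧
    (∀ i, I i ⊆ C) ∧ (∀ i, ((M i)✶ ↾ C)✶.Indep (I i)) ∧ (⋃ i, I i) = C

/-- A uniform matroid: every subset of the ground set is independent or spanning. -/
def IsUniform {α : Type} (M : Matroid α) : Prop :=
  ∀ X, X ⊆ M.E → M.Indep X ∨ M.Spanning X

/-- A direct sum of countably many uniform matroids. -/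
def IsCountableSumOfUniform {α : Type} (M : Matroid α) : Prop :=
  ∃ (ι : Type) (V : ι → Matroid α) (h : Pairwise (Function.onFun Disjoint fun i => (V i).E)),
    Countable ι ∧ M = Matroid.disjointSigma V h ∧ ∀ i, IsUniform (V i)

/-- If the continuum is the first uncountable cardinal, then there are matroids `M` and `N` on
the naturals, both direct sums of countably many uniform matroids, such that the pair `M`, `N`
does not satisfy intersection and the pair `M`, dual of `N`, has no packing/covering
partition. -/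
theorem result (hCH : Cardinal.aleph 1 = (Cardinal.continuum : Cardinal.{0})) :
    ∃ M N : Matroid ℕ, M.E = univ ∧ N.E = univ ∧
      IsCountableSumOfUniform M ∧ IsCountableSumOfUniform N ∧
      ¬ SatisfiesIntersection M N ∧
      ¬ HasPackingCovering univ (fun b : Bool => if b then M else N✶) := by
  classical
  obtain ⟨D⟩ := Vale.Agent.P068.exists_wildData hCH
  have hden : Denumerable Vale.Agent.P068.Grd := Denumerable.ofEncodableOfInfinite _
  let θ : Vale.Agent.P068.Grd ≃ ℕ := Denumerable.eqv _
  have hdual : ∀ X, D.U✶.Indep X ∨ ∃ B, D.U✶.IsBase B ∧ B ⊆ X := by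
    intro X
    have hb : ∀ B, D.U.IsBase B → D.U✶.IsBase Bᶜ := by
      intro B hB
      rw [Matroid.dual_isBase_iff (by rw [D.ground]; exact subset_univ _), D.ground,
        ← compl_eq_univ_sdiff, compl_compl]
      exact hB
    rcases D.unif Xᶜ with h | ⟨B, hB, hBX⟩
    · obtain ⟨B, hB, hXB⟩ := h.exists_isBase_superset
      exact Or.inr ⟨Bᶜ, hb B hB, by rwa [compl_subset_comm]⟩
    · exact Or.inl ((hb B hB).indep.subset (by rwa [subset_compl_comm]))
  have hUE : D.U✶.E = univ := D.ground
  have hME := Vale.Agent.P068.sumM_ground θ false D.U D.ground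
  have hNE := Vale.Agent.P068.sumM_ground θ true D.U✶ hUE
  refine ⟨Vale.Agent.P068.SumM θ false D.U, Vale.Agent.P068.SumM θ true D.U✶, hME, hNE,
    Vale.Agent.P068.sumM_countable_uniform θ false D.U D.ground D.unif,
    Vale.Agent.P068.sumM_countable_uniform θ true D.U✶ hUE hdual, ?_, ?_⟩
  · rintro ⟨J, JM, JN, h1, h2, h3, h4, h5⟩
    exact Vale.Agent.P068.no_inter D θ ⟨J, JM, JN, h1, h2, h4, h3, h5.trans hME⟩
  · rintro ⟨P, C, S, I, h1, h2, h3, h4, h5, h6, h7, h8⟩
    obtain ⟨J, JM, JN, k1, k2, k3, k4, k5⟩ := Vale.Agent.P068.inter_of_packingCovering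
      (M := Vale.Agent.P068.SumM θ false D.U) (N := (Vale.Agent.P068.SumM θ true D.U✶)✶)
      hME hNE (P := P) (C := C) (S₁ := S true) (S₂ := S false) (I₁ := I true) (I₂ := I false)
      h2 h1 (h3 true) (h3 false) (h4 true false (by simp)) (h5 true) (h5 false) (h7 true)
      (h7 false) (by
        rw [← h8]
        ext x
        simp only [mem_union, mem_iUnion, Bool.exists_bool]
        tauto)
    rw [Matroid.dual_dual] at k2 k5
    exact Vale.Agent.P068.no_inter D θ ⟨J, JM, JN, k1, k2, k3, k4, k5⟩

end Vale.Agent.Results.P068.FailsUnderCH
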