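import Mathlib
import Vale.Agent.Lib.P068.SumUniform
import Vale.Agent.Lib.P068.WildC

/-!
The packing/covering conjecture and the matroid intersection conjecture each imply that fewer
than continuum many meagre sets cover the Baire space, and that the continuum hypothesis fails;
with explicit failing pairs, built from countably many copies of one uniform matroid.
-/

namespace Vale.Agent.Results.P068.UniformCopies

open Set
open scoped Matroid Cardinal

/-- The packing/covering conjecture: every family of matroids on a common ground set `E` has a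
packing/covering partition, here written as a set `P` and its complement. -/
def PackingCoveringConjecture : Prop :=
  ∀ (E Θ : Type) (M : Θ → Matroid E), (∀ i, (M i).E = univ) →
    ∃ (P : Set E) (S I : Θ → Set E), (∀ i j, i ≠ j → Disjoint (S i) (S j)) ∧
      (∀ i, S i ⊆ P ∧ ((M i) ↾ P).closure (S i) = P ∧ ((M i) ／ P).Indep (I i)) ∧
      (⋃ i, I i) = Pᶜ

/-- The matroid intersection conjecture: for every pair of matroids on a common ground set there
are disjoint sets whose union is independent in both matroids and whose closures, one in each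
matroid, cover the ground set. -/
def IntersectionConjecture : Prop :=
  ∀ (E : Type) (M N : Matroid E), M.E = univ → N.E = univ →
    ∃ J K : Set E, Disjoint J K ∧ M.Indep (J ∪ K) ∧ N.Indep (J ∪ K) ∧
      M.closure J ∪ N.closure K = univ

/-- Fewer than continuum many meagre sets cover the Baire space. -/
def FewMeagreSetsCover : Prop :=
  ∃ F : Set (Set (ℕ → ℕ)), #F < 𝔠 ∧ (∀ A ∈ F, IsMeagre A) ∧ ⋃₀ F = univ

/-- Index of a vertex of one colour. -/
noncomputable def vxEquiv (c : Bool) : Vale.Agent.P068.Vx c ≃ ℕ :=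
  Equiv.ofBijective (fun v => v.1.2) (by
    have hflip : ∀ k, Vale.Agent.P068.col true k = !(Vale.Agent.P068.col false k) := by
      intro k
      induction k with
      | zero => rfl
      | succ k ih => simp only [Vale.Agent.P068.col, ih]
    constructor
    · rintro ⟨⟨s, k⟩, hv⟩ ⟨⟨t, l⟩, hw⟩ h
      have hkl : k = l := h
      subst hkl
      have hst : s = t := by
        cases s <;> cases t
        · rfl
        · simp only [hflip] at hw
          simp only at hv
          rw [hv] at hw
          cases c <;> simp at hw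
        · simp only [hflip] at hv
          simp only at hw
          rw [hw] at hv
          cases c <;> simp at hv
        · rfl
      subst hst
      rfl
    · intro k
      cases h : Vale.Agent.P068.col false k <;> cases c
      · exact ⟨⟨(false, k), h⟩, rfl⟩
      · exact ⟨⟨(true, k), by simp [hflip, h]⟩, rfl⟩
      · exact ⟨⟨(true, k), by simp [hflip, h]⟩, rfl⟩
      · exact ⟨⟨(false, k), h⟩, rfl⟩)

theorem covCat_of_not_few (h : ¬ FewMeagreSetsCover) : Vale.Agent.P068.CovCat := by
  intro O hO hV
  by_contra hne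
  rw [not_nonempty_iff_eq_empty] at hne
  apply h
  refine ⟨compl '' O, lt_of_le_of_lt Cardinal.mk_image_le hO, ?_, ?_⟩
  · rintro _ ⟨V, hVO, rfl⟩
    have h1 := hV V hVO
    unfold IsMeagre
    rw [compl_compl]
    exact residual_of_dense_open h1.1 h1.2
  · rw [sUnion_image, ← compl_empty, ← hne, sInter_eq_biInter, compl_iInter₂]

theorem exists_data (h : (ℵ₁ : Cardinal.{0}) = 𝔠 ∨ ¬ FewMeagreSetsCover) : Nonempty Vale.Agent.P068.WildData := by
  rcases h with h | h
  · exact Vale.Agent.P068.exists_wildData h
  · exact Vale.Agent.P068.CovVersion.exists_wildDataC (covCat_of_not_few h)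

/-- The failing pair. -/
theorem exists_pair (h : (ℵ₁ : Cardinal.{0}) = 𝔠 ∨ ¬ FewMeagreSetsCover) :
    ∃ (U : Matroid ℕ) (π : Equiv.Perm (ℕ × ℕ)) (M N : Matroid (ℕ × ℕ)),
        U.E = univ ∧ (∀ X, U.Indep X ∨ U.Spanning X) ∧
        M = Matroid.sum' (fun _ : ℕ => U) ∧ N = M.mapEquiv π ∧
        (¬ ∃ P S T I J : Set (ℕ × ℕ), Disjoint S T ∧
          (S ⊆ P ∧ (M ↾ P).closure S = P ∧ (M ／ P).Indep I) ∧
          (T ⊆ P ∧ (N ↾ P).closure T = P ∧ (N ／ P).Indep J) ∧ I ∪ J = Pᶜ) ∧
        (¬ ∃ J K : Set (ℕ × ℕ), Disjoint J K ∧ M.Indep (J ∪ K) ∧ N✶.Indep (J ∪ K) ∧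
          M.closure J ∪ N✶.closure K = univ) := by
  classical
  obtain ⟨D⟩ := exists_data h
  have hden : Denumerable (ℕ ⊕ ℕ) := Denumerable.ofEncodableOfInfinite _
  let e : ℕ ⊕ ℕ ≃ ℕ := Denumerable.eqv _
  let ρ : Bool → (ℕ × ℕ ≃ Vale.Agent.P068.Grd) := fun c =>
    ((vxEquiv c).symm.prodCongr e.symm).trans (Vale.Agent.P068.chartEquiv c)
  let θ : Vale.Agent.P068.Grd ≃ ℕ × ℕ := (ρ false).symm
  let U : Matroid ℕ := D.U.mapEquiv e
  let π : Equiv.Perm (ℕ × ℕ) := (ρ true).trans θ
  let M : Matroid (ℕ × ℕ) := Matroid.sum' (fun _ : ℕ => U)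
  have hUE : U.E = univ := by
    show (D.U.mapEquiv e).E = univ
    rw [Matroid.mapEquiv_ground_eq, D.ground, image_univ]
    exact Equiv.range_eq_univ _
  have hME : M.E = univ := by
    show (Matroid.sum' (fun _ : ℕ => U)).E = univ
    rw [Matroid.sum'_ground_eq, hUE]
    ext ⟨i, x⟩
    simp
  have hNE : (M.mapEquiv π).E = univ := by
    rw [Matroid.mapEquiv_ground_eq, hME, image_univ]
    exact Equiv.range_eq_univ _
  have hM : Vale.Agent.P068.SumM θ false D.U = M := by
    refine Matroid.ext_indep ?_ ?_
    · rw [hME]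
      exact Vale.Agent.P068.sumM_ground θ false D.U D.ground
    · intro A _
      unfold Vale.Agent.P068.SumM
      rw [Matroid.mapEquiv_indep_iff, Matroid.sum'_indep_iff, Matroid.sum'_indep_iff]
      have key : ∀ v : Vale.Agent.P068.Vx false,
          Prod.mk v ⁻¹' (((Vale.Agent.P068.chartEquiv false).trans θ).symm '' A) =
            e.symm '' (Prod.mk (vxEquiv false v) ⁻¹' A) := by
        intro v
        rw [Equiv.image_symm_eq_preimage, Equiv.image_symm_eq_preimage]
        ext x
        simp [θ, ρ]
      constructor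
      · intro hh i
        have h1 := hh ((vxEquiv false).symm i)
        rw [key, Equiv.apply_symm_apply] at h1
        rw [Matroid.mapEquiv_indep_iff]
        exact h1
      · intro hh v
        have h1 := hh (vxEquiv false v)
        rw [Matroid.mapEquiv_indep_iff] at h1
        rw [key]
        exact h1
  have hN : Vale.Agent.P068.SumM θ true D.U✶ = (M.mapEquiv π)✶ := by
    have hU1 : (D.U✶).E = univ := D.ground
    refine Matroid.ext_isBase ?_ ?_
    · rw [Matroid.dual_ground, hNE]
      exact Vale.Agent.P068.sumM_ground θ true D.U✶ hU1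
    · intro A _
      unfold Vale.Agent.P068.SumM
      rw [Matroid.mapEquiv_isBase_iff, Matroid.sum'_isBase_iff,
        Matroid.dual_isBase_iff (by rw [hNE]; exact subset_univ _), hNE,
        Matroid.mapEquiv_isBase_iff, Matroid.sum'_isBase_iff]
      have key : ∀ v : Vale.Agent.P068.Vx true,
          (Prod.mk v ⁻¹' (((Vale.Agent.P068.chartEquiv true).trans θ).symm '' A))ᶜ =
            e.symm '' (Prod.mk (vxEquiv true v) ⁻¹' (π.symm '' (univ \ A))) := by
        intro v
        rw [Equiv.image_symm_eq_preimage, Equiv.image_symm_eq_preimage,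
          Equiv.image_symm_eq_preimage]
        ext x
        simp [π, ρ]
      constructor
      · intro hh i
        have h1 := hh ((vxEquiv true).symm i)
        rw [Matroid.dual_isBase_iff (by rw [D.ground]; exact subset_univ _), D.ground,
          ← compl_eq_univ_sdiff, key, Equiv.apply_symm_apply] at h1
        rw [Matroid.mapEquiv_isBase_iff]
        exact h1
      · intro hh v
        have h1 := hh (vxEquiv true v)
        rw [Matroid.mapEquiv_isBase_iff] at h1
        rw [Matroid.dual_isBase_iff (by rw [D.ground]; exact subset_univ _), D.ground,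
          ← compl_eq_univ_sdiff, key]
        exact h1
  have hno := Vale.Agent.P068.no_inter D θ
  rw [hM, hN] at hno
  refine ⟨U, π, M, M.mapEquiv π, hUE, ?_, rfl, rfl, ?_, ?_⟩
  · intro X
    rcases D.unif (e.symm '' X) with h1 | ⟨B, hB, hBX⟩
    · left
      exact (Matroid.mapEquiv_indep_iff (f := e)).2 h1
    · right
      have h2 : U.IsBase (e '' B) := by
        show (D.U.mapEquiv e).IsBase (e '' B)
        rw [Matroid.mapEquiv_isBase_iff, Equiv.symm_image_image]
        exact hB
      refine h2.spanning_of_superset ?_ (by rw [hUE]; exact subset_univ _)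
      rintro _ ⟨x, hx, rfl⟩
      obtain ⟨y, hy, hyx⟩ := hBX hx
      rw [← hyx, Equiv.apply_symm_apply]
      exact hy
  · rintro ⟨P, S, T, I, J, h1, ⟨h2, h3, h4⟩, ⟨h5, h6, h7⟩, h8⟩
    have hPC : Pᶜ = univ \ P := compl_eq_univ_sdiff P
    have hi₁ : (M✶ ↾ Pᶜ)✶.Indep I := by
      have : M✶ ↾ Pᶜ = M✶ ＼ P := by
        rw [Matroid.delete_eq_restrict, Matroid.dual_ground, hME, ← hPC]
      rw [this, Matroid.dual_delete_dual]
      exact h4
    have hi₂ : ((M.mapEquiv π)✶ ↾ Pᶜ)✶.Indep J := by
      have : (M.mapEquiv π)✶ ↾ Pᶜ = (M.mapEquiv π)✶ ＼ P := by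
        rw [Matroid.delete_eq_restrict, Matroid.dual_ground, hNE, ← hPC]
      rw [this, Matroid.dual_delete_dual]
      exact h7
    exact hno (Vale.Agent.P068.inter_of_packingCovering hME hNE disjoint_compl_right
      (union_compl_self P) h2 h5 h1 h3 h6 hi₁ hi₂ h8)
  · rintro ⟨J, K, h1, h2, h3, h4⟩
    exact hno ⟨J ∪ K, J, K, h2, h3, h1, rfl, h4⟩

/-- Each of the two conjectures implies that fewer than continuum many meagre sets cover the
Baire space and that the continuum hypothesis fails. Moreover, if the continuum hypothesis holds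
or if fewer than continuum many meagre sets never cover the Baire space, there are a uniform
matroid `U` on the naturals and a permutation `π` such that, for `M` the direct sum of countably
many copies of `U` and `N` the image of `M` under `π`, the pair `M`, `N` has no packing/covering
partition and the pair `M`, dual of `N`, does not satisfy intersection. -/
theorem result :
    (PackingCoveringConjecture → FewMeagreSetsCover ∧ (ℵ₁ : Cardinal.{0}) < 𝔠) ∧
    (IntersectionConjecture → FewMeagreSetsCover ∧ (ℵ₁ : Cardinal.{0}) < 𝔠) ∧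
    ((ℵ₁ : Cardinal.{0}) = 𝔠 ∨ ¬ FewMeagreSetsCover →
      ∃ (U : Matroid ℕ) (π : Equiv.Perm (ℕ × ℕ)) (M N : Matroid (ℕ × ℕ)),
        U.E = univ ∧ (∀ X, U.Indep X ∨ U.Spanning X) ∧
        M = Matroid.sum' (fun _ : ℕ => U) ∧ N = M.mapEquiv π ∧
        (¬ ∃ P S T I J : Set (ℕ × ℕ), Disjoint S T ∧
          (S ⊆ P ∧ (M ↾ P).closure S = P ∧ (M ／ P).Indep I) ∧
          (T ⊆ P ∧ (N ↾ P).closure T = P ∧ (N ／ P).Indep J) ∧ I ∪ J = Pᶜ) ∧
        (¬ ∃ J K : Set (ℕ × ℕ), Disjoint J K ∧ M.Indep (J ∪ K) ∧ N✶.Indep (J ∪ K) ∧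
          M.closure J ∪ N✶.closure K = univ)) := by
  have hground : ∀ (U : Matroid ℕ), U.E = univ →
      (Matroid.sum' (fun _ : ℕ => U)).E = univ := by
    intro U hU
    rw [Matroid.sum'_ground_eq, hU]
    ext ⟨i, x⟩
    simp
  have hmap : ∀ (M : Matroid (ℕ × ℕ)) (π : Equiv.Perm (ℕ × ℕ)), M.E = univ →
      (M.mapEquiv π).E = univ := by
    intro M π hM
    rw [Matroid.mapEquiv_ground_eq, hM, image_univ]
    exact Equiv.range_eq_univ _
  have hle : (ℵ₁ : Cardinal.{0}) ≤ 𝔠 := Cardinal.aleph_one_le_continuum
  refine ⟨fun hconj => ?_, fun hconj => ?_, exists_pair⟩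
  · by_contra hcon
    have hyp : (ℵ₁ : Cardinal.{0}) = 𝔠 ∨ ¬ FewMeagreSetsCover := by
      by_cases h1 : FewMeagreSetsCover
      · left
        by_contra h2
        exact hcon ⟨h1, lt_of_le_of_ne hle h2⟩
      · exact Or.inr h1
    obtain ⟨U, π, M, N, hU, _, rfl, rfl, hpc, _⟩ := exists_pair hyp
    apply hpc
    obtain ⟨P, S, I, h1, h2, h3⟩ := hconj (ℕ × ℕ) Bool
      (fun b => if b then Matroid.sum' (fun _ : ℕ => U)
        else (Matroid.sum' (fun _ : ℕ => U)).mapEquiv π)
      (by
        intro b
        cases b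
        · simpa using hmap _ π (hground U hU)
        · simpa using hground U hU)
    refine ⟨P, S true, S false, I true, I false, h1 true false (by simp), ?_, ?_, ?_⟩
    · simpa using h2 true
    · simpa using h2 false
    · rw [← h3]
      ext x
      simp only [mem_union, mem_iUnion, Bool.exists_bool]
      tauto
  · by_contra hcon
    have hyp : (ℵ₁ : Cardinal.{0}) = 𝔠 ∨ ¬ FewMeagreSetsCover := by
      by_cases h1 : FewMeagreSetsCover
      · left
        by_contra h2
        exact hcon ⟨h1, lt_of_le_of_ne hle h2⟩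
      · exact Or.inr h1
    obtain ⟨U, π, M, N, hU, _, rfl, rfl, _, hin⟩ := exists_pair hyp
    exact hin (hconj (ℕ × ℕ) _ _ (hground U hU) (by
      rw [Matroid.dual_ground]
      exact hmap _ π (hground U hU)))

end Vale.Agent.Results.P068.UniformCopies
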